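import Mathlib

/-! Gibbs states of Hermitian matrices: positivity and the energy-entropy inequality. -/

namespace Vale.Agent.P361H

open Matrix Finset

variable {ι : Type*} [Fintype ι] [DecidableEq ι]

theorem diag_form {K : Matrix ι ι ℂ} (hK : K.IsHermitian) (β : ℝ) :
    ∃ (U : Matrix ι ι ℂ) (E : ι → ℝ), Uᴴ * U = 1 ∧ U * Uᴴ = 1 ∧
      K = U * diagonal (fun a => (E a : ℂ)) * Uᴴ ∧
      NormedSpace.exp (-(β : ℂ) • K) = U * diagonal (fun a => (Real.exp (-β * E a) : ℂ)) * Uᴴ := by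
  set U : Matrix ι ι ℂ := (hK.eigenvectorUnitary : Matrix ι ι ℂ)
  have h1 : Uᴴ * U = 1 := Unitary.coe_star_mul_self hK.eigenvectorUnitary
  have h2 : U * Uᴴ = 1 := Unitary.coe_mul_star_self hK.eigenvectorUnitary
  have h3 : K = U * diagonal (fun a => (hK.eigenvalues a : ℂ)) * Uᴴ := hK.spectral_theorem
  refine ⟨U, hK.eigenvalues, h1, h2, h3, ?_⟩
  have hinv : U⁻¹ = Uᴴ := inv_eq_left_inv h1
  have h4 : -(β : ℂ) • K = U * diagonal (fun a => ((-β * hK.eigenvalues a : ℝ) : ℂ)) * U⁻¹ := by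
    rw [hinv]
    conv_lhs => rw [h3]
    rw [← smul_mul_assoc, ← mul_smul_comm, ← diagonal_smul]
    congr 3
    ext a
    simp
  rw [h4, Matrix.exp_conj _ _ (IsUnit.of_mul_eq_one _ h2), exp_diagonal, hinv]
  congr 3
  ext a
  rw [Pi.coe_exp, ← Complex.exp_eq_exp_ℂ, Complex.ofReal_exp]

theorem tr_diag_left (r : ι → ℝ) (B : Matrix ι ι ℂ) :
    (trace (diagonal (fun a => (r a : ℂ)) * (Bᴴ * B))).re = ∑ a, ∑ b, r b * ‖B a b‖ ^ 2 := by
  rw [sum_comm]
  simp only [trace, diag_apply, diagonal_mul]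
  simp only [mul_apply, conjTranspose_apply, Complex.re_sum, mul_sum]
  refine sum_congr rfl fun b _ => sum_congr rfl fun a _ => ?_
  rw [RCLike.star_def, Complex.conj_mul', ← Complex.ofReal_pow, ← Complex.ofReal_mul,
    Complex.ofReal_re]

theorem tr_diag_right (r : ι → ℝ) (B : Matrix ι ι ℂ) :
    (trace (diagonal (fun a => (r a : ℂ)) * (B * Bᴴ))).re = ∑ a, ∑ b, r a * ‖B a b‖ ^ 2 := by
  have := tr_diag_left r Bᴴ
  rw [conjTranspose_conjTranspose] at this
  rw [this, sum_comm]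
  simp

omit [DecidableEq ι] in
theorem tr_conj {U : Matrix ι ι ℂ} (D X : Matrix ι ι ℂ) :
    trace (U * D * Uᴴ * X) = trace (D * (Uᴴ * X * U)) := by
  rw [mul_assoc, mul_assoc, trace_mul_comm]
  simp only [mul_assoc]

theorem gibbs_nonneg {K : Matrix ι ι ℂ} (hK : K.IsHermitian) (β : ℝ) (X : Matrix ι ι ℂ) :
    0 ≤ (trace (NormedSpace.exp (-(β : ℂ) • K) * (Xᴴ * X))).re := by
  obtain ⟨U, E, h1, h2, h3, h4⟩ := diag_form hK β
  have : Uᴴ * (Xᴴ * X) * U = (X * U)ᴴ * (X * U) := by simp [mul_assoc]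
  rw [h4, tr_conj, this, tr_diag_left]
  positivity

theorem gibbs_pos [Nonempty ι] {K : Matrix ι ι ℂ} (hK : K.IsHermitian) (β : ℝ) :
    0 < (trace (NormedSpace.exp (-(β : ℂ) • K))).re := by
  obtain ⟨U, E, h1, h2, h3, h4⟩ := diag_form hK β
  rw [h4, ← mul_one (U * _ * Uᴴ), tr_conj, mul_one, h1, mul_one, trace_diagonal, Complex.re_sum]
  simp only [Complex.ofReal_re]
  exact sum_pos (fun _ _ => Real.exp_pos _) univ_nonempty

theorem tangent {x y t : ℝ} (ht : 0 < t) :
    (Real.exp y - Real.exp x) * Real.log t + (Real.exp y - t * Real.exp x) +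
      (Real.exp x - Real.exp y / t) ≤ (y - x) * (Real.exp y - Real.exp x) := by
  have h1 := Real.add_one_le_exp (x - y + Real.log t)
  have h2 := Real.add_one_le_exp (y - x - Real.log t)
  rw [Real.exp_add, Real.exp_log ht, Real.exp_sub] at h1
  rw [Real.exp_sub, Real.exp_log ht, Real.exp_sub] at h2
  have hx := Real.exp_pos x
  have hy := Real.exp_pos y
  have h3 := mul_le_mul_of_nonneg_left h1 hy.le
  have h4 := mul_le_mul_of_nonneg_left h2 hx.le
  have e3 : Real.exp y * (Real.exp x / Real.exp y * t) = t * Real.exp x := by field_simp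
  have e4 : Real.exp x * (Real.exp y / Real.exp x / t) = Real.exp y / t := by field_simp
  rw [e3] at h3
  rw [e4] at h4
  nlinarith

/-- the energy-entropy inequality in tangent form -/
theorem energy_entropy {K : Matrix ι ι ℂ} (hK : K.IsHermitian) (β : ℝ) (A : Matrix ι ι ℂ)
    {t : ℝ} (ht : 0 < t) :
    ((trace (NormedSpace.exp (-(β : ℂ) • K) * (Aᴴ * A))).re -
        (trace (NormedSpace.exp (-(β : ℂ) • K) * (A * Aᴴ))).re) * Real.log t +
      ((trace (NormedSpace.exp (-(β : ℂ) • K) * (Aᴴ * A))).re -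
        t * (trace (NormedSpace.exp (-(β : ℂ) • K) * (A * Aᴴ))).re) +
      ((trace (NormedSpace.exp (-(β : ℂ) • K) * (A * Aᴴ))).re -
        (trace (NormedSpace.exp (-(β : ℂ) • K) * (Aᴴ * A))).re / t) ≤
    β * (trace (NormedSpace.exp (-(β : ℂ) • K) *
      (Aᴴ * (K * A - A * K) - (K * A - A * K) * Aᴴ))).re := by
  obtain ⟨U, E, h1, h2, h3, h4⟩ := diag_form hK β
  set B := Uᴴ * A * U with hB
  set D : Matrix ι ι ℂ := diagonal fun a => (E a : ℂ) with hD
  have c : ∀ X : Matrix ι ι ℂ, U * (Uᴴ * X) = X := fun X => by rw [← mul_assoc, h2, one_mul]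
  have c' : ∀ X : Matrix ι ι ℂ, Uᴴ * (U * X) = X := fun X => by rw [← mul_assoc, h1, one_mul]
  have e1 : Uᴴ * (Aᴴ * A) * U = Bᴴ * B := by simp [hB, mul_assoc, c]
  have e2 : Uᴴ * (A * Aᴴ) * U = B * Bᴴ := by simp [hB, mul_assoc, c]
  have e3 : Uᴴ * (Aᴴ * (K * A - A * K) - (K * A - A * K) * Aᴴ) * U =
      Bᴴ * (D * B - B * D) - (D * B - B * D) * Bᴴ := by
    conv_lhs => rw [h3]
    simp [hB, mul_assoc, c, c', h1, mul_sub, sub_mul]
  have e4 : (trace (diagonal (fun a => (Real.exp (-β * E a) : ℂ)) *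
      (Bᴴ * (D * B - B * D) - (D * B - B * D) * Bᴴ))).re =
      ∑ a, ∑ b, (E a - E b) * (Real.exp (-β * E b) - Real.exp (-β * E a)) * ‖B a b‖ ^ 2 := by
    have f1 : ∀ a b, (D * B - B * D) a b = ((E a - E b : ℝ) : ℂ) * B a b := by
      intro a b
      simp only [hD, Matrix.sub_apply, diagonal_mul, mul_diagonal]
      push_cast
      ring
    generalize D * B - B * D = C at f1
    have g1 : (trace (diagonal (fun a => (Real.exp (-β * E a) : ℂ)) * (Bᴴ * C))).re =
        ∑ a, ∑ b, (E a - E b) * Real.exp (-β * E b) * ‖B a b‖ ^ 2 := by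
      rw [sum_comm]
      simp only [trace, diag_apply, diagonal_mul]
      simp only [mul_apply, conjTranspose_apply, Complex.re_sum, mul_sum, f1]
      refine sum_congr rfl fun b _ => sum_congr rfl fun a _ => ?_
      rw [mul_left_comm (star (B a b)), RCLike.star_def, Complex.conj_mul', ← Complex.ofReal_pow,
        ← Complex.ofReal_mul, ← Complex.ofReal_mul, Complex.ofReal_re]
      ring
    have g2 : (trace (diagonal (fun a => (Real.exp (-β * E a) : ℂ)) * (C * Bᴴ))).re =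
        ∑ a, ∑ b, (E a - E b) * Real.exp (-β * E a) * ‖B a b‖ ^ 2 := by
      simp only [trace, diag_apply, diagonal_mul]
      simp only [mul_apply, conjTranspose_apply, Complex.re_sum, mul_sum, f1]
      refine sum_congr rfl fun a _ => sum_congr rfl fun b _ => ?_
      rw [mul_assoc _ (B a b), RCLike.star_def, Complex.mul_conj', ← Complex.ofReal_pow,
        ← Complex.ofReal_mul, ← Complex.ofReal_mul, Complex.ofReal_re]
      ring
    rw [mul_sub, trace_sub, Complex.sub_re, g1, g2, ← sum_sub_distrib]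
    refine sum_congr rfl fun a _ => ?_
    rw [← sum_sub_distrib]
    exact sum_congr rfl fun b _ => by ring
  rw [h4, tr_conj, tr_conj, tr_conj, e1, e2, e3, e4, tr_diag_left, tr_diag_right]
  simp only [mul_sum, sum_div, ← sum_sub_distrib, sum_mul, ← sum_add_distrib]
  refine sum_le_sum fun a _ => sum_le_sum fun b _ => ?_
  have := mul_le_mul_of_nonneg_right (tangent (x := -β * E a) (y := -β * E b) ht)
    (sq_nonneg ‖B a b‖)
  calc _ = ((Real.exp (-β * E b) - Real.exp (-β * E a)) * Real.log t +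
        (Real.exp (-β * E b) - t * Real.exp (-β * E a)) +
        (Real.exp (-β * E a) - Real.exp (-β * E b) / t)) * ‖B a b‖ ^ 2 := by ring
    _ ≤ _ := this
    _ = _ := by ring

end Vale.Agent.P361H
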