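import Mathlib

/-! The low temperature limit of the spin wave integral. -/

namespace Vale.Agent.P361H

open Real Filter Topology MeasureTheory Finset

/-- the one-dimensional spin wave integral -/
noncomputable def Jf (s : ℝ) : ℝ := (2 * π)⁻¹ * ∫ k in (-π)..π, exp (-s * (1 - cos k))

theorem Jf_nonneg (s : ℝ) : 0 ≤ Jf s :=
  mul_nonneg (by positivity)
    (intervalIntegral.integral_nonneg (by linarith [pi_pos]) fun _ _ => (exp_pos _).le)

theorem Jf_anti : Antitone Jf := by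
  intro s t hst
  refine mul_le_mul_of_nonneg_left ?_ (by positivity)
  refine intervalIntegral.integral_mono_on (by linarith [pi_pos])
    (Continuous.intervalIntegrable (by fun_prop) _ _)
    (Continuous.intervalIntegrable (by fun_prop) _ _) fun k _ => exp_le_exp.2 ?_
  nlinarith [cos_le_one k]

theorem Jf_cont : Continuous Jf :=
  continuous_const.mul (intervalIntegral.continuous_parametric_intervalIntegral_of_continuous'
    (μ := volume) (f := fun s k : ℝ => exp (-s * (1 - cos k))) (by fun_prop) _ _)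

theorem Jf_asym {c : ℝ} (hc : c < (√(2 * π))⁻¹) : ∀ᶠ s in atTop, c ≤ √s * Jf s := by
  have hint : Integrable fun u : ℝ => exp (-(1 / 2) * u ^ 2) := integrable_exp_neg_mul_sq (by norm_num)
  have h1 : Tendsto (fun s : ℝ => √s * π) atTop atTop :=
    tendsto_sqrt_atTop.atTop_mul_const pi_pos
  have h2 : Tendsto (fun s : ℝ => √s * -π) atTop atBot :=
    tendsto_sqrt_atTop.atTop_mul_const_of_neg (by linarith [pi_pos])
  have h3 := (intervalIntegral_tendsto_integral hint h2 h1).const_mul (2 * π)⁻¹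
  rw [integral_gaussian] at h3
  have h4 : (2 * π)⁻¹ * √(π / (1 / 2)) = (√(2 * π))⁻¹ := by
    rw [show π / (1 / 2) = 2 * π by ring]
    have : 0 < √(2 * π) := by positivity
    have h5 : √(2 * π) * √(2 * π) = 2 * π := mul_self_sqrt (by positivity)
    field_simp
    linarith
  rw [h4] at h3
  filter_upwards [h3.eventually (lt_mem_nhds hc), eventually_gt_atTop 0] with s hs hs0
  refine hs.le.trans ?_
  rw [← intervalIntegral.smul_integral_comp_mul_left (fun u : ℝ => exp (-(1 / 2) * u ^ 2)) (√s),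
    smul_eq_mul, Jf, mul_left_comm]
  refine mul_le_mul_of_nonneg_left (mul_le_mul_of_nonneg_left ?_ (by positivity)) (by positivity)
  refine intervalIntegral.integral_mono_on (by linarith [pi_pos])
    (Continuous.intervalIntegrable (by fun_prop) _ _)
    (Continuous.intervalIntegrable (by fun_prop) _ _) fun k _ => exp_le_exp.2 ?_
  rw [mul_pow, sq_sqrt hs0.le]
  nlinarith [one_sub_sq_div_two_le_cos (x := k)]

theorem Jf_cube {a c : ℝ} (ha : 0 < a) (hc : c < ((2 * π * a) ^ (3 / 2 : ℝ))⁻¹) :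
    ∀ᶠ β in atTop, c ≤ β ^ (3 / 2 : ℝ) * Jf (β * a) ^ 3 := by
  have e : ∀ x : ℝ, 0 ≤ x → x ^ (3 / 2 : ℝ) = √x ^ 3 := by
    intro x hx
    rw [sqrt_eq_rpow, ← rpow_natCast, ← rpow_mul hx]
    norm_num
  have hcont : Tendsto (fun y : ℝ => y ^ 3 / √a ^ 3) (𝓝[<] (√(2 * π))⁻¹)
      (𝓝 (((2 * π * a) ^ (3 / 2 : ℝ))⁻¹)) := by
    refine (Continuous.tendsto' (by fun_prop) _ _ ?_).mono_left nhdsWithin_le_nhds
    rw [e _ (by positivity), sqrt_mul (x := 2 * π) (by positivity) a, mul_pow, mul_inv, inv_pow,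
      div_eq_mul_inv]
  obtain ⟨y, hy1, hy2, hy3⟩ := ((hcont.eventually (lt_mem_nhds hc)).and
    (Ioo_mem_nhdsLT (show (0 : ℝ) < (√(2 * π))⁻¹ by positivity))).exists
  filter_upwards [(tendsto_id.atTop_mul_const ha).eventually (Jf_asym hy3),
    eventually_gt_atTop 0] with β h hβ
  refine hy1.le.trans ?_
  rw [div_le_iff₀ (by positivity), e _ hβ.le]
  have h2 := pow_le_pow_left₀ hy2.le h 3
  simp only [id] at h2
  rw [sqrt_mul hβ.le] at h2
  calc _ ≤ _ := h2
    _ = _ := by ring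

/-- from the finite temperature inequality to the one-sided law -/
theorem bloch_lim {S : ℝ} (hS : 0 < S) (m : ℝ → ℝ)
    (h : ∀ δ : ℝ, 0 < δ → ∃ η : ℝ, 0 < η ∧ ∀ β : ℝ, 0 < β → S - η ≤ m β → ∀ J : ℕ,
      (1 - δ) * ∑ j ∈ range J, Jf (β * ((j + 1) * (2 * S * (1 + δ)))) ^ 3 ≤ S - m β)
    {c : ℝ} (hc : c < (∑' j : ℕ, 1 / ((j : ℝ) + 1) ^ (3 / 2 : ℝ)) /
      (8 * π ^ (3 / 2 : ℝ) * S ^ (3 / 2 : ℝ))) :
    ∀ᶠ β in atTop, c ≤ β ^ (3 / 2 : ℝ) * (S - m β) := by
  have hsum : Summable fun j : ℕ => 1 / ((j : ℝ) + 1) ^ (3 / 2 : ℝ) := by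
    have := (summable_nat_add_iff 1).2 (summable_one_div_nat_rpow.2 (by norm_num : (1 : ℝ) < 3 / 2))
    simpa using this
  obtain ⟨J, hJ⟩ := ((hsum.hasSum.tendsto_sum_nat.div_const
    (8 * π ^ (3 / 2 : ℝ) * S ^ (3 / 2 : ℝ))).eventually (lt_mem_nhds hc)).exists
  let g : ℝ → ℝ := fun δ => (1 - δ) * ∑ j ∈ range J,
    (((2 * π * ((j + 1) * (2 * S * (1 + δ)))) ^ (3 / 2 : ℝ))⁻¹ - δ)
  have hg : Tendsto g (𝓝[>] 0) (𝓝 ((∑ j ∈ range J, 1 / ((j : ℝ) + 1) ^ (3 / 2 : ℝ)) /
      (8 * π ^ (3 / 2 : ℝ) * S ^ (3 / 2 : ℝ)))) := by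
    have h0 : ContinuousAt g 0 := by
      refine ContinuousAt.mul (by fun_prop) (tendsto_finsetSum _ fun j _ => ?_)
      refine ContinuousAt.sub (ContinuousAt.inv₀ (ContinuousAt.rpow_const (by fun_prop)
        (Or.inr (by norm_num))) (by positivity)) continuousAt_id
    refine (h0.tendsto.mono_left nhdsWithin_le_nhds).trans (le_of_eq ?_)
    congr 1
    simp only [g, sub_zero, add_zero, one_mul, mul_one, sum_div]
    refine sum_congr rfl fun j _ => ?_
    have h4 : (4 : ℝ) ^ (3 / 2 : ℝ) = 8 := by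
      rw [show (4 : ℝ) = 2 ^ (2 : ℝ) by norm_num, ← rpow_mul (by norm_num)]
      norm_num
    rw [show 2 * π * ((j + 1) * (2 * S)) = (j + 1) * (4 * π * S) by ring,
      mul_rpow (by positivity) (by positivity), mul_rpow (by positivity) (by positivity),
      mul_rpow (by positivity) (by positivity), h4, div_div, one_div]
  obtain ⟨δ, hδ1, hδ2, hδ3⟩ := ((hg.eventually (lt_mem_nhds hJ)).and
    (Ioo_mem_nhdsGT (zero_lt_one (α := ℝ)))).exists
  obtain ⟨η, hη, hm⟩ := h δ hδ2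
  have hall : ∀ᶠ β in atTop, ∀ j ∈ range J,
      ((2 * π * ((j + 1) * (2 * S * (1 + δ)))) ^ (3 / 2 : ℝ))⁻¹ - δ ≤
        β ^ (3 / 2 : ℝ) * Jf (β * ((j + 1) * (2 * S * (1 + δ)))) ^ 3 :=
    (eventually_all_finset _).2 fun j _ => Jf_cube (by positivity) (by linarith)
  filter_upwards [hall, eventually_gt_atTop 0,
    ((tendsto_rpow_atTop (by norm_num : (0 : ℝ) < 3 / 2)).atTop_mul_const hη).eventually_ge_atTop c]
    with β h1 hβ h2
  by_cases h3 : S - η ≤ m β
  · refine hδ1.le.trans (le_trans ?_ (mul_le_mul_of_nonneg_left (hm β hβ h3 J) (by positivity)))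
    rw [mul_left_comm, mul_sum]
    exact mul_le_mul_of_nonneg_left (sum_le_sum h1) (by linarith)
  · exact h2.trans (mul_le_mul_of_nonneg_left (by linarith) (by positivity))

end Vale.Agent.P361H
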